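import Vale.Agent.P354CB.Ez

/-!
CORNER: the corner of two future timelike curves is smoothed on its future side.
-/

open Set Filter Topology

namespace Vale.Agent.P354CB44

open Vale.Agent.P354n
open Vale.Agent.P354CB
open Vale.Agent.P354XJ

/-- A function which starts with slope one, ends at rest at zero, and is almost increasing. -/
theorem bump {κ : ℝ} (hκ : 0 < κ) : ∃ φ φ' : ℝ → ℝ, Continuous φ' ∧
    (∀ s, HasDerivAt φ (φ' s) s) ∧ φ 0 = 0 ∧ φ' 0 = 1 ∧ φ 1 = 0 ∧ φ' 1 = 0 ∧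
    ∀ s ∈ Icc (0 : ℝ) 1, φ' s ∈ Icc (-κ) 1 := by
  obtain ⟨n, hn⟩ := exists_nat_gt (2 / κ)
  have n0 : (0 : ℝ) < n + 2 := by positivity
  refine ⟨fun s => (1 - (1 - s) ^ (n + 2) - (3 * s ^ 2 - 2 * s ^ 3)) / (n + 2),
    fun s => (1 - s) ^ (n + 1) - 6 * (s * (1 - s)) / (n + 2), by fun_prop, fun s => ?_, by simp,
    by simp, by norm_num, by simp, fun s hs => ⟨?_, ?_⟩⟩
  · have d1 := (((hasDerivAt_id s).const_sub 1).fun_pow (n + 2)).const_sub 1
    have d2 := (((hasDerivAt_id s).fun_pow 2).const_mul 3).fun_sub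
      (((hasDerivAt_id s).fun_pow 3).const_mul 2)
    refine ((d1.fun_sub d2).div_const ((n : ℝ) + 2)).congr_deriv ?_
    simp only [id, show n + 2 - 1 = n + 1 from rfl]
    push_cast
    field_simp
    ring
  · have h1 : 0 ≤ (1 - s) ^ (n + 1) := pow_nonneg (sub_nonneg.2 hs.2) _
    have h2 : 6 * (s * (1 - s)) / (n + 2) ≤ κ := by
      rw [div_lt_iff₀ hκ] at hn
      rw [div_le_iff₀ n0]
      nlinarith [sq_nonneg (2 * s - 1)]
    linarith
  · have h1 : (1 - s) ^ (n + 1) ≤ 1 := pow_le_one₀ (sub_nonneg.2 hs.2) (by linarith [hs.1])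
    have h2 : 0 ≤ 6 * (s * (1 - s)) / (n + 2) :=
      div_nonneg (mul_nonneg (by norm_num) (mul_nonneg hs.1 (sub_nonneg.2 hs.2))) n0.le
    linarith

theorem der_out {f : ℝ → R4} {f' : R4} {s : Set ℝ} {t : ℝ} (hs : IsClosed s) (h : t ∉ s) :
    HasDerivWithinAt f f' s t :=
  HasFDerivWithinAt.of_notMem_closure (by rwa [hs.closure_eq])

variable {M : Spc} {a b c : ℝ}

/-- Two pieces of one curve with the same velocity at the junction. -/
theorem glue (B : B0) (h : St M) {w : ℝ → M.pt} (hab : a < b) (hbc : b < c)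
    (h1 : Cv M (Icc a b) w) (h2 : Cv M (Icc b c) w) {e : M.Chart} (he : On e (w b)) {p : R4}
    (d1 : HasDerivWithinAt (fun s => co e (w s)) p (Icc a b) b)
    (d2 : HasDerivWithinAt (fun s => co e (w s)) p (Icc b c) b) : Cv M (Icc a c) w := by
  refine B.loc fun t ht => ?_
  rcases lt_trichotomy t b with k | rfl | k
  · exact ⟨Icc a b, w, mem_nhdsWithin.2 ⟨Iio b, isOpen_Iio, k, fun s hs => ⟨hs.2.1, hs.1.le⟩⟩,
      Icc_subset_Icc_right hbc.le, h1, fun _ _ => rfl⟩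
  swap
  · exact ⟨Icc b c, w, mem_nhdsWithin.2 ⟨Ioi b, isOpen_Ioi, k, fun s hs => ⟨hs.1.le, hs.2.2⟩⟩,
      Icc_subset_Icc_left hab.le, h2, fun _ _ => rfl⟩
  have ct : ContinuousAt w t := (h1.1.union_of_isClosed h2.1 isClosed_Icc
    isClosed_Icc).continuousAt (by
      rw [Icc_union_Icc_eq_Icc hab.le hbc.le]
      exact Icc_mem_nhds hab hbc)
  obtain ⟨a', c', -, m, hs⟩ := exists_Icc_mem_subset_of_mem_nhds
    ((ct.eventually (on_nhds he)).and (Icc_mem_nhds hab hbc))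
  obtain ⟨k1, k2⟩ := Icc_mem_nhds_iff.1 m
  have s1 : Icc a' t ⊆ Icc a' c' := Icc_subset_Icc_right k2.le
  have s2 : Icc t c' ⊆ Icc a' c' := Icc_subset_Icc_left k1.le
  have s3 : Icc a' t ⊆ Icc a t := fun s k => ⟨(hs (s1 k)).2.1, k.2⟩
  have s4 : Icc t c' ⊆ Icc t c := fun s k => ⟨k.1, (hs (s2 k)).2.2⟩
  have u1 := uniqueDiffOn_Icc k1
  have u2 := uniqueDiffOn_Icc k2
  obtain ⟨x1, c1, v1⟩ := B.vel (B.mono h1 s3 u1) u1 fun s k => (hs (s1 k)).1
  obtain ⟨x2, c2, v2⟩ := B.vel (B.mono h2 s4 u2) u2 fun s k => (hs (s2 k)).1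
  have m1 : t ∈ Icc a' t := right_mem_Icc.2 k1.le
  have m2 : t ∈ Icc t c' := left_mem_Icc.2 k2.le
  have e0 : x1 t = x2 t := ((u1 t m1).eq_deriv _ (v1 t m1).1 (d1.mono s3)).trans
    ((u2 t m2).eq_deriv _ (d2.mono s4) (v2 t m2).1)
  have e1 : EqOn (fun s => if s ≤ t then x1 s else x2 s) x1 (Icc a' t) := fun s k => if_pos k.2
  have e2 : EqOn (fun s => if s ≤ t then x1 s else x2 s) x2 (Icc t c') := fun s k => by
    rcases k.1.eq_or_lt with rfl | l
    · exact (if_pos le_rfl).trans e0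
    · exact if_neg l.not_ge
  have un := Icc_union_Icc_eq_Icc k1.le k2.le
  refine ⟨Icc a' c', fun s => inv e (co e (w s)), nhdsWithin_le_nhds m, fun s k => (hs k).2,
    B.chart h (x' := fun s => if s ≤ t then x1 s else x2 s) (uniqueDiffOn_Icc (k1.trans k2))
      (un ▸ (c1.congr e1).union_of_isClosed (c2.congr e2) isClosed_Icc isClosed_Icc)
      fun s k => ⟨co_mem (hs k).1, ?_, ?_⟩, fun s k => (inv_co (hs k).1).symm⟩
  · rw [← un]
    refine HasDerivWithinAt.union ?_ ?_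
    · by_cases l : s ∈ Icc a' t
      · exact (v1 s l).1.congr_deriv (e1 l).symm
      · exact der_out isClosed_Icc l
    · by_cases l : s ∈ Icc t c'
      · exact (v2 s l).1.congr_deriv (e2 l).symm
      · exact der_out isClosed_Icc l
  · rcases un.symm.subset k with l | l
    · rw [show (if s ≤ t then x1 s else x2 s) = x1 s from e1 l]
      exact (v1 s l).2
    · rw [show (if s ≤ t then x1 s else x2 s) = x2 s from e2 l]
      exact (v2 s l).2

/-- The future timelike vectors over the chart e. -/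
def Ft (e : M.Chart) (z v : R4) : Prop := z ∈ tgt e ∧ M.g e z v v < 0 ∧ M.g e z v (M.X e z) < 0

theorem Ft.ev (h : St M) {e : M.Chart} {Z : Type} [TopologicalSpace Z] {z v : Z → R4} {x : Z}
    (k : Ft e (z x) (v x)) (hz : ContinuousAt z x) (hv : ContinuousAt v x) :
    ∀ᶠ y in 𝓝 x, Ft e (z y) (v y) := by
  have n := (isOpen_tgt e).mem_nhds k.1
  exact (hz.eventually n).and (((g_cont h.sp k.1 hz hv hv).eventually (gt_mem_nhds k.2.1)).and
    ((g_cont h.sp k.1 hz hv (ContinuousAt.comp (g := M.X e)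
      ((h.sp.continuous e).continuousAt n) hz)).eventually (gt_mem_nhds k.2.2)))

theorem cvx {l x y : ℝ} (l0 : 0 ≤ l) (l1 : l ≤ 1) (hx : x < 0) (hy : y < 0) :
    (1 - l) * x + l * y < 0 := by
  rcases l0.eq_or_lt with rfl | k
  · simpa using hx
  · nlinarith [mul_neg_of_pos_of_neg k hy, mul_nonneg (sub_nonneg.2 l1) (neg_nonneg.2 hx.le)]

theorem Ft.convex (h : St M) {e : M.Chart} {z p q : R4} (hp : Ft e z p) (hq : Ft e z q) {l : ℝ}
    (l0 : 0 ≤ l) (l1 : l ≤ 1) : Ft e z (q + l • (p - q)) := by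
  have L := h.lor e
  have Bi := bilin_of L hp.1
  have T := L.tl z hp.1
  rw [show q + l • (p - q) = (1 - l) • q + l • p by module]
  refine ⟨hp.1, ?_, ?_⟩
  · simp only [Bi.add_left, Bi.smul_left]
    refine cvx l0 l1 ?_ ?_ <;> simp only [Bi.add_right, Bi.smul_right]
    · exact cvx l0 l1 hq.2.1 (P354YC.cone L hp.1 T hq.2.1 hq.2.2 hp.2.1.le hp.2.2)
    · exact cvx l0 l1 (P354YC.cone L hp.1 T hp.2.1 hp.2.2 hq.2.1.le hq.2.2) hp.2.1
  · simp only [Bi.add_left, Bi.smul_left]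
    exact cvx l0 l1 hq.2.2 hp.2.2

/-- The initial velocity of a future curve can be changed to any future timelike vector. -/
theorem bend (B : B0) (h : St M) {v : ℝ → M.pt} (hbc : b < c) (hv : Cv M (Icc b c) v)
    {e : M.Chart} (he : On e (v b)) {p : R4} (hp : Ft e (co e (v b)) p) :
    ∃ w, Cv M (Icc b c) w ∧ w b = v b ∧ w c = v c ∧
      HasDerivWithinAt (fun s => co e (w s)) p (Icc b c) b := by
  have mb : b ∈ Icc b c := left_mem_Icc.2 hbc.le
  have n1 : ∀ᶠ s in 𝓝[≥] b, On e (v s) ∧ s < c :=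
    (nhdsWithin_Icc_eq_nhdsGE hbc ▸ (hv.1 b mb).eventually (on_nhds he)).and
      (nhdsWithin_le_nhds (Iio_mem_nhds hbc))
  obtain ⟨c', k1, hs⟩ := mem_nhdsGE_iff_exists_Icc_subset.1 n1
  replace k1 : b < c' := k1
  have s1 : Icc b c' ⊆ Icc b c := fun s k => ⟨k.1, (hs k).2.le⟩
  have u1 := uniqueDiffOn_Icc k1
  obtain ⟨x', c1, v1⟩ := B.vel (B.mono hv s1 u1) u1 fun s k => (hs k).1
  have m1 : b ∈ Icc b c' := left_mem_Icc.2 k1.le
  have hq : Ft e (co e (v b)) (x' b) := ⟨hp.1, (v1 b m1).2⟩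
  set r := p - x' b with hr
  obtain ⟨κ, κ0, hκ⟩ := Metric.eventually_nhds_iff.1 (Ft.ev h (x := (0 : ℝ))
    (z := fun _ => co e (v b)) (v := fun l => x' b + l • r) (by simpa using hq)
    continuousAt_const (by fun_prop))
  obtain ⟨φ, φ', f1, f2, f3, f4, f5, f6, f7⟩ := bump (half_pos κ0)
  have f0 : Continuous φ := continuous_iff_continuousAt.2 fun s => (f2 s).continuousAt
  have tube := (isCompact_Icc (a := (0 : ℝ)) (b := 1)).eventually_forall_of_forall_eventually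
    (x₀ := ((co e (v b), x' b), (0 : ℝ)))
    (P := fun y s => Ft e (y.1.1 + (y.2 * φ s) • r) (y.1.2 + φ' s • r)) fun s k =>
      Ft.ev h (x := (((co e (v b), x' b), (0 : ℝ)), s))
        (z := fun y : ((R4 × R4) × ℝ) × ℝ => y.1.1.1 + (y.1.2 * φ y.2) • r)
        (v := fun y : ((R4 × R4) × ℝ) × ℝ => y.1.1.2 + φ' y.2 • r) (by
          simp only [zero_mul, zero_smul, add_zero]
          rcases le_total 0 (φ' s) with l | l
          · exact Ft.convex h hp hq l (f7 s k).2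
          · refine hκ ?_
            rw [Real.dist_eq, sub_zero, abs_of_nonpos l]
            linarith [(f7 s k).1]) (by fun_prop) (by fun_prop)
  rw [nhds_prod_eq, eventually_prod_iff] at tube
  obtain ⟨P1, p1, P2, p2, tube⟩ := tube
  have n2 : ∀ᶠ s in 𝓝[≥] b, P1 (co e (v s), x' s) := nhdsWithin_Icc_eq_nhdsGE k1 ▸
    ((v1 b m1).1.continuousWithinAt.prodMk (c1 b m1)).eventually p1
  obtain ⟨c'', k2, hs'⟩ := mem_nhdsGE_iff_exists_Icc_subset.1 n2
  replace k2 : b < c'' := k2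
  obtain ⟨η, ⟨η1, η2⟩, η0⟩ := (((p2.and
    (Iio_mem_nhds (lt_min (sub_pos.2 k1) (sub_pos.2 k2)))).filter_mono
      (nhdsWithin_le_nhds (s := Ioi (0 : ℝ)))).and self_mem_nhdsWithin).exists
  replace η0 : 0 < η := η0
  obtain ⟨η2, η3⟩ := lt_min_iff.1 η2
  have k3 : b < b + η := by linarith
  have k4 : b + η < c := by linarith [(hs (right_mem_Icc.2 k1.le)).2]
  have s2 : Icc b (b + η) ⊆ Icc b c' := Icc_subset_Icc_right (by linarith)
  have u2 := uniqueDiffOn_Icc k3
  let y : ℝ → R4 := fun t => co e (v t) + (η * φ ((t - b) / η)) • r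
  let y' : ℝ → R4 := fun t => x' t + φ' ((t - b) / η) • r
  have dy : ∀ t ∈ Icc b (b + η), HasDerivWithinAt y (y' t) (Icc b (b + η)) t := fun t k =>
    ((v1 t (s2 k)).1.mono s2).fun_add (((((f2 _).comp t
      (((hasDerivAt_id t).sub_const b).div_const η)).const_mul η).congr_deriv
        (by simp only [id]; field_simp)).smul_const r).hasDerivWithinAt
  have fy : ∀ t ∈ Icc b (b + η), Ft e (y t) (y' t) := fun t k =>
    tube (hs' ⟨k.1, by linarith [k.2]⟩) η1 _ ⟨div_nonneg (sub_nonneg.2 k.1) η0.le,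
      (div_le_one η0).2 (by linarith [k.2])⟩
  have cy := B.chart h (x := y) (x' := y') u2 ((c1.mono s2).add (by fun_prop))
    fun t k => ⟨(fy t k).1, dy t k, (fy t k).2⟩
  have mη : b + η ∈ Icc b (b + η) := right_mem_Icc.2 k3.le
  have mb' : b ∈ Icc b (b + η) := left_mem_Icc.2 k3.le
  have y1 : y (b + η) = co e (v (b + η)) := by simp [y, η0.ne', f5]
  have y2 : y' (b + η) = x' (b + η) := by simp [y', η0.ne', f6]
  have y3 : y b = co e (v b) := by simp [y, f3]
  have y4 : y' b = p := by simp [y', f4, hr]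
  have o1 : On e (v (b + η)) := (hs (s2 mη)).1
  let w : ℝ → M.pt := fun t => if t ≤ b + η then inv e (y t) else v t
  have e1 : EqOn w (fun t => inv e (y t)) (Icc b (b + η)) := fun s k => if_pos k.2
  have e2 : EqOn w v (Icc (b + η) c) := fun s k => by
    rcases k.1.eq_or_lt with rfl | l
    · exact (if_pos le_rfl).trans (by rw [y1, inv_co o1])
    · exact if_neg l.not_ge
  have dw : ∀ t ∈ Icc b (b + η), HasDerivWithinAt (fun s => co e (w s)) (y' t) (Icc b (b + η)) t :=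
    fun t k => (dy t k).congr_of_mem (fun s l => by rw [e1 l, co_inv (fy s l).1]) k
  have mc : b + η ∈ Icc (b + η) c := left_mem_Icc.2 k4.le
  refine ⟨w, glue B h k3 k4 (B.congr cy e1) (B.congr (B.mono hv (Icc_subset_Icc_left k3.le)
    (uniqueDiffOn_Icc k4)) e2) (e := e) (by rwa [e2 mc]) (dw _ mη) ?_, ?_,
    e2 (right_mem_Icc.2 k4.le), ?_⟩
  · rw [y2]
    exact ((v1 _ (s2 mη)).1.hasDerivAt
      (Icc_mem_nhds k3 (by linarith))).hasDerivWithinAt.congr_of_mem (fun s l => by rw [e2 l]) mc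
  · rw [e1 mb']
    show inv e (y b) = v b
    rw [y3, inv_co he]
  · exact (y4 ▸ dw b mb').mono_of_mem_nhdsWithin (mem_nhdsWithin.2
      ⟨Iio (b + η), isOpen_Iio, k3, fun s k => ⟨k.2.1, k.1.le⟩⟩)

/-- **CORNER.** -/
theorem corner (B : B0) : CORNER := by
  intro M h a b c u v hab hbc hu hv e0
  obtain ⟨e, he⟩ := M.cover (u b)
  replace he : On e (u b) := he
  have mb : b ∈ Icc a b := right_mem_Icc.2 hab.le
  have mb' : b ∈ Icc b c := left_mem_Icc.2 hbc.le
  obtain ⟨d, k⟩ := hu.2 b mb e he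
  obtain ⟨k1, k2⟩ := k _ _ rfl rfl
  rw [neg_zero] at k1
  have hp : Ft e (co e (u b)) (derivWithin (fun s => co e (u s)) (Icc a b) b) :=
    ⟨co_mem he, k1, k2⟩
  obtain ⟨v', h1, h2, h3, h4⟩ := bend B h hbc hv (e := e) (by rwa [← e0])
    (p := derivWithin (fun s => co e (u s)) (Icc a b) b) (by rw [← e0]; exact hp)
  let w : ℝ → M.pt := fun t => if t ≤ b then u t else v' t
  have e1 : EqOn w u (Icc a b) := fun s k => if_pos k.2
  have e2 : EqOn w v' (Icc b c) := fun s k => by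
    rcases k.1.eq_or_lt with rfl | l
    · exact (if_pos le_rfl).trans (e0.trans h2.symm)
    · exact if_neg l.not_ge
  exact ⟨w, glue B h hab hbc (B.congr hu e1) (B.congr h1 e2) (e := e) (by rwa [e1 mb])
    ((d.differentiableWithinAt one_ne_zero).hasDerivWithinAt.congr_of_mem
      (fun s l => by rw [e1 l]) mb) (h4.congr_of_mem (fun s l => by rw [e2 l]) mb'), e1,
    (e2 (right_mem_Icc.2 hbc.le)).trans h3⟩

end Vale.Agent.P354CB44
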