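import Vale.Agent.P354CB44.Corner

/-!
KJ: the first jet of a local isometry stays bounded when its image stays in a small ball.
-/

set_option maxSynthPendingDepth 3

open scoped ContDiff
open Set Filter Topology Metric

namespace Vale.Agent.P354CB44

open Vale.Agent.P354n
open Vale.Agent.P354CB
open Vale.Agent.P354XJ
open Vale.Agent.P354YC (Is iso_iff)

/-- The estimate along a segment. -/
theorem gron {F : R4 → R4} {w v : R4} {a k : ℝ} {θ : R4 →L[ℝ] ℝ}
    (hF : ∀ t ∈ Icc (0 : ℝ) 1, ContDiffAt ℝ ∞ F (w + t • v))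
    (hb : ∀ t ∈ Icc (0 : ℝ) 1, ‖fderiv ℝ (fderiv ℝ F) (w + t • v) v‖ ≤
      (a + k * θ (fderiv ℝ F (w + t • v) v)) * ‖fderiv ℝ F (w + t • v)‖) :
    ‖fderiv ℝ F (w + v)‖ ≤ (‖fderiv ℝ F w‖ + 1) * Real.exp (a + 1 + k * θ (F (w + v) - F w)) := by
  have dl : ∀ t : ℝ, HasDerivAt (fun t : ℝ => w + t • v) v t := fun t => by
    simpa using ((hasDerivAt_id t).smul_const v).const_add w
  have d1 : ∀ t ∈ Icc (0 : ℝ) 1, HasDerivAt (fun t : ℝ => fderiv ℝ F (w + t • v))
      (fderiv ℝ (fderiv ℝ F) (w + t • v) v) t := fun t ht =>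
    (P354RC.at_df (P354RC.at_fd (hF t ht))).hasFDerivAt.comp_hasDerivAt t (dl t)
  have d2 : ∀ t ∈ Icc (0 : ℝ) 1, HasDerivAt (fun t : ℝ => (‖fderiv ℝ F w‖ + 1) *
      Real.exp ((a + 1) * t + k * θ (F (w + t • v) - F w))) ((‖fderiv ℝ F w‖ + 1) *
      (Real.exp ((a + 1) * t + k * θ (F (w + t • v) - F w)) *
        ((a + 1) * 1 + k * θ (fderiv ℝ F (w + t • v) v)))) t := fun t ht =>
    ((((hasDerivAt_id t).const_mul (a + 1)).fun_add ((θ.hasFDerivAt.comp_hasDerivAt t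
      ((((hF t ht).differentiableAt (by simp)).hasFDerivAt.comp_hasDerivAt t
        (dl t)).sub_const (F w))).const_mul k)).exp).const_mul _
  have := image_norm_le_of_norm_deriv_right_lt_deriv_boundary' (a := 0) (b := 1)
    (fun t ht => (d1 t ht).continuousAt.continuousWithinAt)
    (fun t ht => (d1 t (Ico_subset_Icc_self ht)).hasDerivWithinAt) (by simp)
    (fun t ht => (d2 t ht).continuousAt.continuousWithinAt)
    (fun t ht => (d2 t (Ico_subset_Icc_self ht)).hasDerivWithinAt) (fun t ht e => by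
      refine (hb t (Ico_subset_Icc_self ht)).trans_lt ?_
      have p : 0 < (‖fderiv ℝ F w‖ + 1) *
          Real.exp ((a + 1) * t + k * θ (F (w + t • v) - F w)) := by positivity
      rw [e, ← mul_assoc]
      nlinarith) (right_mem_Icc.2 zero_le_one)
  simpa using this

/-- **KJ.** -/
theorem kj (B : B0) (K3 : LK3) : KJ := by
  intro M N hM hN U ψ hU hψ e' p r L c T n x hx V hV hin hdn e he
  have l := hM.lor e
  have l' := hN.lor e'
  obtain ⟨Γ, g1, g2⟩ := K3.gam l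
  obtain ⟨Γ', g1', g2'⟩ := K3.gam l'
  have m0 := co_mem he
  set x0 := co e x with hx0
  set T0 := M.X e x0
  let F : R4 → R4 := fun y => co e' (ψ (inv e y))
  have mp : p ∈ closedBall p r := mem_closedBall_self n.r0.le
  let θ : R4 →L[ℝ] ℝ := -LinearMap.toContinuousLinearMap ((l'.met.lin p (n.sub mp) T).mk' _)
  have hθ : ∀ a, θ a = -N.g e' p a T := fun a => by
    rw [l'.met.symm p (n.sub mp)]
    rfl
  have i0 : Tendsto (inv e) (𝓝 x0) (𝓝 x) := by
    have := (inv_cont m0).tendsto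
    rwa [hx0, inv_co he] at this
  obtain ⟨ρ, ρ0, hρ⟩ := Metric.eventually_nhds_iff.1 ((Ft.ev hM (x := (x0, T0)) (z := Prod.fst)
    (v := Prod.snd) ⟨m0, l.tl _ m0, l.tl _ m0⟩ continuousAt_fst continuousAt_snd).and
    ((i0.comp (continuous_fst.tendsto (x0, T0))).eventually hV))
  have good : ∀ z ∈ ball x0 ρ, ∀ a ∈ ball T0 ρ, Ft e z a ∧ inv e z ∈ V := fun z hz a ha =>
    hρ (y := (z, a)) (max_lt hz ha)
  -- the past of a point of U in the ball
  have down : ∀ z ∈ ball x0 ρ, ∀ w ∈ ball x0 ρ, ∀ s > (0 : ℝ), ∀ a ∈ ball T0 ρ, z = w + s • a →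
      inv e z ∈ U → inv e w ∈ U := fun z hz w hw s s0 a ha ez hu => by
    refine hdn _ hu _ (good w hw a ha).2 ⟨_, B.seg hM (e := e) (z := w) (v := s • a)
      fun t ht => ?_, by simp, by simp [ez]⟩
    have k := (good _ ((convex_ball x0 ρ).add_smul_mem hw (ez ▸ hz) ht) a ha).1
    have Bi := bilin_of l k.1
    refine ⟨k.1, ?_, ?_⟩
    · rw [Bi.smul_left, Bi.smul_right]
      exact mul_neg_of_pos_of_neg s0 (mul_neg_of_pos_of_neg s0 k.2.1)
    · rw [Bi.smul_left]
      exact mul_neg_of_pos_of_neg s0 k.2.2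
  have iso : ∀ z ∈ ball x0 ρ, inv e z ∈ U → ∀ᶠ y in 𝓝 z, y ∈ tgt e ∧ F y ∈ tgt e' ∧
      Is (M.g e) (M.X e) (N.g e') (N.X e') F y := fun z hz hu => by
    have mz := (good z hz T0 (mem_ball_self ρ0)).1.1
    filter_upwards [isOpen_ball.mem_nhds hz, (inv_cont mz).eventually (hU.mem_nhds hu)] with y a b
    obtain ⟨⟨a1, -⟩, a2⟩ := good y a T0 (mem_ball_self ρ0)
    have k := (hψ _ b).2 e e' (inv_mem a1) (hin _ b a2).1
    rw [co_inv a1] at k
    exact ⟨a1, co_mem (hin _ b a2).1, iso_iff.1 k⟩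
  -- sizes
  obtain ⟨s, s0, s1, s2⟩ : ∃ s > (0 : ℝ), s ≤ 1 ∧ s * ‖T0‖ ≤ ρ / 4 := by
    have := norm_nonneg T0
    refine ⟨min 1 (ρ / 4 / (‖T0‖ + 1)), by positivity, min_le_left _ _, ?_⟩
    have k := (le_div_iff₀ (by positivity : 0 < ‖T0‖ + 1)).1
      (min_le_right 1 (ρ / 4 / (‖T0‖ + 1)))
    have : 0 < min 1 (ρ / 4 / (‖T0‖ + 1)) := by positivity
    nlinarith
  set δ := s * ρ / 4 with hδ
  have δ0 : 0 < δ := by positivity
  have δ1 : δ ≤ ρ / 4 := by nlinarith
  have nv : ‖s • T0‖ ≤ ρ / 4 := by rwa [norm_smul, Real.norm_of_nonneg s0.le]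
  have near : ∀ z ∈ closedBall x0 δ, ∀ t ∈ Icc (0 : ℝ) 1,
      z - s • T0 + t • s • T0 ∈ closedBall x0 (ρ / 2) := fun z hz t ht => by
    rw [mem_closedBall_iff_norm, show z - s • T0 + t • s • T0 - x0 = z - x0 - (1 - t) • s • T0 by
      module]
    refine (norm_sub_le _ _).trans ?_
    rw [norm_smul, Real.norm_of_nonneg (sub_nonneg.2 ht.2)]
    nlinarith [mem_closedBall_iff_norm.1 hz, ht.1, norm_nonneg (s • T0)]
  have sub : closedBall x0 (ρ / 2) ⊆ ball x0 ρ := closedBall_subset_ball (half_lt_self ρ0)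
  have sub' : closedBall x0 δ ⊆ ball x0 ρ := closedBall_subset_ball (by linarith)
  obtain ⟨u, ⟨u1, u2⟩, u3⟩ := mem_closure_iff_nhds.1 hx _ ((on_nhds he).and
    ((co_cont he).eventually (closedBall_mem_nhds x0 δ0)))
  have base : ∀ z ∈ closedBall x0 δ, inv e (z - s • T0) ∈ U := fun z hz => by
    refine down (co e u) (sub' u2) _ (sub (by simpa using near z hz 0 ⟨le_rfl, zero_le_one⟩)) s s0
      (T0 + s⁻¹ • (co e u - z)) ?_ ?_ (by rwa [inv_co u1])
    · rw [mem_ball_iff_norm, add_sub_cancel_left, norm_smul, Real.norm_of_nonneg (inv_pos.2 s0).le,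
        inv_mul_lt_iff₀ s0]
      have := dist_triangle_right (co e u) z x0
      rw [dist_eq_norm] at this
      have a : dist (co e u) x0 ≤ δ := u2
      have b : dist z x0 ≤ δ := hz
      nlinarith [mul_pos s0 ρ0]
    · rw [smul_add, smul_smul, mul_inv_cancel₀ s0.ne', one_smul]
      abel
  obtain ⟨C0, hC0⟩ := (isCompact_closedBall x0 δ).exists_bound_of_continuousOn
    (f := fun z => fderiv ℝ F (z - s • T0)) fun z hz => ContinuousAt.continuousWithinAt
      (ContinuousAt.comp (g := fderiv ℝ F) (((iso _ (sub (by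
        simpa using near z hz 0 ⟨le_rfl, zero_le_one⟩)) (base z hz)).self_of_nhds.2.2.1.fderiv_right
          (m := 0) (by simp)).continuousAt) (by fun_prop))
  obtain ⟨Λ, hΛ⟩ := (isCompact_closedBall x0 (ρ / 2)).exists_bound_of_continuousOn (f := Γ)
    (g1.continuousOn.mono fun z hz => (good z (sub hz) T0 (mem_ball_self ρ0)).1.1)
  obtain ⟨Λ', hΛ'⟩ := (isCompact_closedBall p r).exists_bound_of_continuousOn (f := Γ')
    (g1'.continuousOn.mono n.sub)
  have Λ0 : 0 ≤ Λ' := (norm_nonneg _).trans (hΛ' p mp)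
  have c0 := n.c0
  refine ⟨(C0 + 1) * Real.exp (Λ * ‖s • T0‖ + 1 + Λ' / c * (‖θ‖ * (2 * r))), ?_⟩
  filter_upwards [closedBall_mem_nhds x0 δ0] with z hz hu
  have ez : z - s • T0 + s • T0 = z := sub_add_cancel _ _
  have inU : ∀ t ∈ Icc (0 : ℝ) 1, inv e (z - s • T0 + t • s • T0) ∈ U := fun t ht => by
    rcases ht.2.eq_or_lt with rfl | k
    · rwa [one_smul, ez]
    · exact down z (sub' hz) _ (sub (near z hz t ht)) ((1 - t) * s) (mul_pos (sub_pos.2 k) s0) T0
        (mem_ball_self ρ0) (by module) hu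
  have inB : ∀ t ∈ Icc (0 : ℝ) 1, F (z - s • T0 + t • s • T0) ∈ closedBall p r := fun t ht =>
    (hin _ (inU t ht) (good _ (sub (near z hz t ht)) T0 (mem_ball_self ρ0)).2).2
  have key := gron (F := F) (w := z - s • T0) (v := s • T0) (a := Λ * ‖s • T0‖) (k := Λ' / c)
    (θ := θ) (fun t ht => (iso _ (sub (near z hz t ht)) (inU t ht)).self_of_nhds.2.2.1)
    fun t ht => by
      have my := near z hz t ht
      have mF := inB t ht
      have ev := iso _ (sub my) (inU t ht)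
      set y := z - s • T0 + t • s • T0
      obtain ⟨a1, a2, a3⟩ := ev.self_of_nhds
      have je := K3.je l l' ev ((g2 y a1 fun y a b => Γ y a b).2 fun _ _ => rfl)
        ((g2' _ a2 fun y a b => Γ' y a b).2 fun _ _ => rfl)
      obtain ⟨-, k1, k2⟩ := (good y (sub my) T0 (mem_ball_self ρ0)).1
      have q := n.cone _ mF p mp (fderiv ℝ F y T0) (a3.2.1 _ _ ▸ k1.le)
        (P354YC.fut_map l l' a1 a2 a3.2.1 a3.2.2 k1 k2).le
      rw [← hθ] at q
      have q2 : Λ' * ‖fderiv ℝ F y (s • T0)‖ ≤ Λ' / c * θ (fderiv ℝ F y (s • T0)) := by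
        rw [map_smul, map_smul, norm_smul, Real.norm_of_nonneg s0.le, smul_eq_mul, div_mul_eq_mul_div,
          le_div_iff₀ c0]
        nlinarith [mul_le_mul_of_nonneg_left q (mul_nonneg Λ0 s0.le)]
      have Λ1 : 0 ≤ Λ := (norm_nonneg _).trans (hΛ y my)
      have P0 := norm_nonneg (fderiv ℝ F y)
      refine ContinuousLinearMap.opNorm_le_bound _ (mul_nonneg (add_nonneg (by positivity)
        ((by positivity : 0 ≤ Λ' * ‖fderiv ℝ F y (s • T0)‖).trans q2)) P0) fun b => ?_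
      rw [je]
      have b1 : ‖fderiv ℝ F y (Γ y (s • T0) b)‖ ≤ ‖fderiv ℝ F y‖ * (Λ * ‖s • T0‖ * ‖b‖) :=
        ((fderiv ℝ F y).le_opNorm _).trans (mul_le_mul_of_nonneg_left
          (((Γ y).le_opNorm₂ _ _).trans (by gcongr; exact hΛ y my)) P0)
      have b2 : ‖Γ' (F y) (fderiv ℝ F y (s • T0)) (fderiv ℝ F y b)‖ ≤
          Λ' * ‖fderiv ℝ F y (s • T0)‖ * (‖fderiv ℝ F y‖ * ‖b‖) :=
        ((Γ' (F y)).le_opNorm₂ _ _).trans (by
          gcongr
          exacts [hΛ' _ mF, (fderiv ℝ F y).le_opNorm b])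
      refine (norm_sub_le _ _).trans ((add_le_add b1 b2).trans ?_)
      nlinarith [mul_le_mul_of_nonneg_right q2 (mul_nonneg P0 (norm_nonneg b))]
  rw [ez] at key
  refine key.trans ?_
  have f1 := inB 1 (right_mem_Icc.2 zero_le_one)
  have f0 := inB 0 (left_mem_Icc.2 zero_le_one)
  rw [one_smul, ez] at f1
  rw [zero_smul, add_zero] at f0
  have f2 : θ (F z - F (z - s • T0)) ≤ ‖θ‖ * (2 * r) := by
    refine (le_abs_self _).trans ((θ.le_opNorm _).trans
      (mul_le_mul_of_nonneg_left ?_ (norm_nonneg _)))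
    rw [← dist_eq_norm]
    linarith [dist_triangle_right (F z) (F (z - s • T0)) p, mem_closedBall.1 f1,
      mem_closedBall.1 f0]
  have C1 := (norm_nonneg _).trans (hC0 z hz)
  gcongr
  exact hC0 z hz

end Vale.Agent.P354CB44
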